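import Crest.Agent.N265.K.AB4
import Crest.Agent.N265.K.Box

/-! # Row 265, FIX layer, part 0 (helper94): spaces on which the grading acts by one scalar -/

set_option autoImplicit false
noncomputable section
open MvPolynomial TensorProduct Module

namespace Crest.Agent.N265
open Alg _root_.Crest.Agent.N265.Pow GV Bun

variable {X Y : Spc} {V W U : GV} {d e : D}

/-- the grading automorphism is the scalar `chi d` -/
def GV.Sc (V : GV) (d : D) : Prop := ∀ v, V.g v = chi d • v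

namespace GV
lemma sc_triv (M : Type) [AddCommGroup M] [Module ℂ M] [FiniteDimensional ℂ M] :
    (triv M).Sc 0 := fun v => by simp
lemma Sc.of_eq (h : V.Sc d) (he : d = e) : V.Sc e := he ▸ h
lemma Sc.shift (h : V.Sc d) (e : D) : (V.shift e).Sc (d + e) := fun v => by
  rw [shift_g, h, smul_smul, chi_add, mul_comm]
lemma sc_shift (M : Type) [AddCommGroup M] [Module ℂ M] [FiniteDimensional ℂ M] (d : D) :
    ((triv M).shift d).Sc d := ((sc_triv M).shift d).of_eq (zero_add d)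
lemma Sc.symm (h : V.Sc d) (v : V.V) : V.g.symm v = (chi d)⁻¹ • v := by
  rw [LinearEquiv.symm_apply_eq, map_smul, h, smul_smul, inv_mul_cancel₀ (chi_ne d), one_smul]
lemma Sc.tens (h : V.Sc d) (h' : W.Sc e) : (V.tens W).Sc (d + e) := fun t => by
  induction t using TensorProduct.induction_on with
  | zero => simp
  | tmul v w =>
    change V.g v ⊗ₜ[ℂ] W.g w = _
    rw [h, h', chi_add, TensorProduct.smul_tmul_smul]
  | add a b ha hb => rw [map_add, ha, hb, smul_add]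
lemma Sc.dual (h : V.Sc d) : V.dual.Sc (-d) := fun f => LinearMap.ext fun v => by
  change f (V.g.symm v) = _
  rw [h.symm, map_smul, chi_neg]; rfl
lemma Sc.hom (h : V.Sc d) (h' : W.Sc e) : (V.hom W).Sc (e - d) := fun f => LinearMap.ext fun v => by
  change W.g (f (V.g.symm v)) = _
  rw [h.symm, h', map_smul, smul_smul, chi_sub]; rfl
lemma Sc.prod (h : V.Sc d) (h' : W.Sc d) : (V.prod W).Sc d := fun v => Prod.ext (h v.1) (h' v.2)
lemma sc_pi {ι : Type} [Fintype ι] {V : ι → GV} (h : ∀ i, (V i).Sc d) : (pi V).Sc d :=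
  fun v => funext fun i => h i (v i)
lemma Sc.lam (h : V.Sc d) (k : ℕ) : (lam k V).Sc (k • d) := fun z => by
  rw [Pol.chi_nsmul]
  exact lamM_smul k (L := ⊤) (fun v _ => h v) (by simp)
lemma Sc.in_ (h : V.Sc d) {B : Finset ℕ} (hd : d ∈ DS B) : V.In B :=
  diag_iff.2 fun _ hp => eq_top_iff.2 fun v _ => hp _ ⟨d, hd, rfl⟩ v (h v)
lemma Sc.deg0 (h : V.Sc d) (h' : W.Sc d) (f : V.V →ₗ[ℂ] W.V) : Deg0 V W f := fun v => by
  rw [h, h', map_smul]
lemma Sc.isRM (h : V.Sc d) (h' : W.Sc d) (f : V.V →ₗ[ℂ] W.V) : IsRM X V W fun _ => f :=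
  IsRM.const (h.deg0 h' f)
lemma Sc.map_g (h : V.Sc d) (N : Submodule ℂ V.V) : N.map V.g.toLinearMap = N := by
  ext v
  refine ⟨?_, fun hv => ⟨(chi d)⁻¹ • v, N.smul_mem _ hv, ?_⟩⟩
  · rintro ⟨u, hu, rfl⟩
    exact (h u).symm ▸ N.smul_mem _ hu
  · rw [← h.symm]; exact V.g.apply_symm_apply v
lemma Sc.stab (h : V.Sc d) (N : Submodule ℂ V.V) : V.Stab N := h.map_g N
lemma Sc.eqv_iff (h : V.Sc d) {L : Pt → Submodule ℂ V.V} :
    Eqv X V L ↔ ∀ x ∈ X.pts, L (gpt x) = L x :=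
  forall₂_congr fun x _ => by rw [h.map_g, eq_comm]
lemma Sc.isRM_iff (h : V.Sc d) (h' : W.Sc e) {φ : Pt → V.V →ₗ[ℂ] W.V} : IsRM X V W φ ↔
    (RegM X.fn fun x => φ x.1) ∧ ∀ x ∈ X.pts, ∀ v, φ (gpt x) v = chi (e - d) • φ x v := by
  refine ⟨fun H => ⟨H.reg, fun x hx v => ?_⟩, fun H => IsRM.mk' H.1 fun x hx v => ?_⟩
  · have := H.eqv_apply hx ((chi d)⁻¹ • v)
    rw [← h.symm, LinearEquiv.apply_symm_apply, h.symm, h', map_smul, smul_smul] at this
    rw [this, chi_sub]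
  · rw [H.2 x hx, h, h', map_smul, smul_smul, ← chi_add, sub_add_cancel]
variable {L : Pt → Submodule ℂ V.V}
/-- change of the scalar -/
lemma Sc.isAB_of {g : V.V ≃ₗ[ℂ] V.V} (h : V.Sc d) (k : (GV.mk V.V g).Sc e) (he : e ∈ DS X.B)
    (H : IsAB X V L) : IsAB X (GV.mk V.V g) L :=
  ⟨k.in_ he, H.alg, k.eqv_iff.2 (h.eqv_iff.1 H.eqv)⟩
lemma Sc.isAB_triv (h : V.Sc d) (H : IsAB X V L) : IsAB X (triv V.V) L :=
  h.isAB_of (sc_triv _) (zero_mem _) H
lemma Sc.isAB (h : V.Sc d) (hd : d ∈ DS X.B) (ha : Alg X.fn fun x => L x.1)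
    (hi : ∀ x ∈ X.pts, L (gpt x) = L x) : IsAB X V L := ⟨h.in_ hd, ha, h.eqv_iff.2 hi⟩
lemma Sc.kc_eq (h : V.Sc d) (hd : d ∈ DS X.B) (H : IsAB X V L) :
    kc X V L = lbK X d * kc X (triv V.V) L := by
  rw [← kc_shift (h.isAB_triv H) hd]
  exact kc_iso H ((h.isAB_triv H).shift hd) (h.isRM (sc_shift _ d) LinearMap.id)
    fun x _ => ⟨by simp, by simp⟩
lemma Sc.deg_eq (h : V.Sc d) {A : Bun X} (hA : Pres A V L) (i : A.ι) : A.deg i = d := by
  obtain ⟨b, hb, -⟩ := hA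
  exact chi_inj (smul_left_injective ℂ (b.ne_zero i) ((hb i).symm.trans (h _)))
lemma Sc.pure {k : ℤ} (h : V.Sc (k • eT)) {A : Bun X} (hA : Pres A V L) (w : ℕ → ℤ) :
    A.Pure w k := Bun.pure_iff.2 fun i => by rw [h.deg_eq hA, nwt_eT]
lemma Sc.kpure {k : ℤ} (h : V.Sc (k • eT)) (H : IsAB X V L) {w : ℕ → ℤ} (hw : X.TTriv w) :
    K.Pure hw k (kc X V L) := by
  obtain ⟨A, hA⟩ := H.exists_pres
  exact hA.kl ▸ (h.pure hA w).kpure
end GV

section cog
variable {M N P Q : Type} [AddCommGroup M] [Module ℂ M] [FiniteDimensional ℂ M] [AddCommGroup N]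
  [Module ℂ N] [FiniteDimensional ℂ N] [AddCommGroup P] [Module ℂ P] [AddCommGroup Q] [Module ℂ Q]
/-- `{v | f v u = 0 for all u ∈ L}` -/
def killer (f : M →ₗ[ℂ] N →ₗ[ℂ] P) (L : Submodule ℂ N) : Submodule ℂ M where
  carrier := {v | ∀ u ∈ L, f v u = 0}
  add_mem' := fun h h' u hu => by rw [map_add, LinearMap.add_apply, h u hu, h' u hu, add_zero]
  zero_mem' := fun u _ => by simp
  smul_mem' := fun c _ h u hu => by rw [map_smul, LinearMap.smul_apply, h u hu, smul_zero]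
omit [FiniteDimensional ℂ M] [FiniteDimensional ℂ N] in
lemma mem_killer {f : M →ₗ[ℂ] N →ₗ[ℂ] P} {L : Submodule ℂ N} {v : M} :
    v ∈ killer f L ↔ ∀ u ∈ L, f v u = 0 := Iff.rfl
/-- linear conditions indexed by a generated family; the target may be infinite-dimensional -/
lemma GenA.killer {L : Pt → Submodule ℂ N} (h : GenA X L) (f : M →ₗ[ℂ] N →ₗ[ℂ] P) :
    CogA X fun x => killer f (L x) := by
  have h1 : CogA X fun x => (L x).dualAnnihilator := by
    refine (h.map (φ := fun _ => (Module.evalEquiv ℂ N).toLinearMap)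
      fun v => RegV.const _).congr fun x _ => ?_
    exact (Subspace.dualAnnihilator_dualAnnihilator_eq_map (L x)).symm
  refine (CogA.iInf fun ℓ : Dual ℂ P => h1.comap (φ := fun _ => f.compr₂ ℓ)
    fun v => RegV.const _).congr fun x _ => ?_
  ext v
  simp only [Submodule.mem_iInf, Submodule.mem_comap, Submodule.mem_dualAnnihilator,
    LinearMap.compr₂_apply, mem_killer]
  exact ⟨fun H u hu => (Module.forall_dual_apply_eq_zero_iff ℂ _).1 fun ℓ => H ℓ u hu,
    fun H ℓ u hu => by rw [H u hu, map_zero]⟩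
end cog

/-- a line in `O(d)^h` -/
theorem nil_of_sc (h : V.Sc d) (hd : d ∈ DS X.B) {L : Pt → Submodule ℂ V.V} {l : Bun X}
    (hl : Pres l V L) (h1 : l.Rk 1) : (1 - op X l.kl * lb X (-d)) ^ finrank ℂ V.V = 0 := by
  obtain ⟨q, hq⟩ := chp_dvd_amb h1
  have := congrArg (Polynomial.eval (op X l.kl)) hq
  rw [chp_rk_one h1, Polynomial.eval_mul, Polynomial.eval_prod] at this
  simp only [Polynomial.eval_sub, Polynomial.eval_X, Polynomial.eval_C, sub_self, zero_mul,
    h.deg_eq hl, Finset.prod_const, Finset.card_univ] at this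
  obtain ⟨b, -⟩ := hl
  rw [finrank_eq_card_basis b,
    show 1 - op X l.kl * lb X (-d) = -lb X (-d) * (op X l.kl - lb X d) by
      have := lb_mul_neg (X := X) d
      have _ := hd
      linear_combination -this, mul_pow, this, mul_zero]

/-- a bundle whose class is pure may be replaced by a pure bundle with the same determinant -/
theorem K.Pure.exists_bun_det {w : ℕ → ℤ} {hw : X.TTriv w} {k : ℤ} {A : Bun X}
    (h : K.Pure hw k A.kl) {r : ℕ} (hr : A.Rk r) : ∃ (A' : Bun X) (hr' : A'.Rk r),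
      A'.Pure w k ∧ A'.kl = A.kl ∧ (A'.det r hr').kl = (A.det r hr).kl := by
  have e : (A.wt w hw (· = k)).kl = A.kl := (K.wt_kl hw _ A).symm.trans h
  have hr' : (A.wt w hw (· = k)).Rk r := fun x hx => by
    have := congrArg (K.rk hx) e
    rw [K.rk_kl, K.rk_kl, hr x hx] at this
    exact_mod_cast this
  refine ⟨_, hr', A.wt_pure w hw k, e, L0.kl_det_iso (A := A) (B := A.wt w hw (· = k))
    (B0.dl (Subtype.val : {i // nwt X.B w (A.deg i) = k} → A.ι) id : Matrix _ A.ι R)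
    (B0.mhmg_dl (f := Subtype.val) (g := id) fun _ _ e => congrArg A.deg e) (fun x hx => ?_) hr hr'⟩
  erw [B0.mev_dl_id]
  refine ⟨?_, rfl⟩
  have h1 := LinearMap.finrank_range_add_finrank_ker
    ((LinearMap.funLeft ℂ ℂ (Subtype.val : {i // nwt X.B w (A.deg i) = k} → A.ι)).domRestrict
      (A.L x))
  rw [LinearMap.range_domRestrict, hr x hx] at h1
  have h2 : finrank ℂ ((A.L x).map (LinearMap.funLeft ℂ ℂ
    (Subtype.val : {i // nwt X.B w (A.deg i) = k} → A.ι))) = r := hr' x hx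
  rw [h2, Nat.add_eq_left, Submodule.finrank_eq_zero, LinearMap.ker_eq_bot'] at h1
  exact eq_bot_iff.2 fun v hv => congrArg Subtype.val (h1 ⟨v, hv.1⟩ hv.2)

/-- determinants commute with the restriction to a point of the second factor -/
theorem K.atPt_det {S : Spc} (h : Disjoint X.B S.B) (hS : S.TTriv fun _ => 0) (p : Pt)
    (hp : p ∈ S.pts) (A : Bun (X.fib S)) {r : ℕ} (hr : A.Rk r) :
    ∃ hr' : (A.atPt h hS p hp).Rk r,
      K.atPt h hS p hp (A.det r hr).kl = ((A.atPt h hS p hp).det r hr').kl := by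
  refine ⟨fun x hx => hr _ (Spc.add_mem_fib h hx hp).1, ?_⟩
  rw [K.atPt_kl]
  exact K3.kl_reindex (Equiv.refl _)
    (fun j => (map_sum (dpr X.B) (fun i => A.deg (j i)) Finset.univ).symm) fun _ _ _ => Iff.rfl

/-- the bundle of lines of a family, in the variables of a block -/
theorem IsAB.exists_psub {L : Pt → Submodule ℂ V.V} (h : IsAB X V L) (β : Blk V) {b : ℕ}
    (hb : b ∉ X.B) : ∃ (A : Bun X) (y : A.ι → Var) (P : Spc), Pres A V L ∧ IsPSub P A 0 b y ∧
      ∀ z, z ∈ P.pts ↔ restr X.B z ∈ X.pts ∧ β.vec b z ∈ L (restr X.B z) ∧ β.vec b z ≠ 0 ∧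
        ∀ v, z v ≠ 0 → v.1 ∈ X.B ∨ v ∈ β.vars b := by
  have hd : ∀ i, β.w i • eT ∈ DS X.B := fun i => zsmul_mem (eT_mem _) _
  have hp : PVar (h.toBun β.e _ hd β.he) 0 b (β.var b) :=
    ⟨hb, zero_mem _, β.var_inj b, fun _ => rfl, fun _ => (zero_add _).symm⟩
  obtain ⟨P, hP⟩ := hp.exists_psub
  refine ⟨_, _, P, ⟨_, h.presB_toBun β.e _ hd β.he⟩, hP, fun z => (hP.mem z).trans ?_⟩
  have e : (fun i => z (β.var b i)) = β.e.equivFun (β.vec b z) :=
    funext fun i => (β.repr_vec b z i).symm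
  refine and_congr_right fun _ => and_congr ?_ (and_congr ?_ (forall₂_congr fun v _ =>
    or_congr_right (by simp only [Blk.vars, Finset.mem_image, Finset.mem_univ, true_and]; rfl)))
  · exact ⟨fun ⟨u, hu, eu⟩ => β.e.equivFun.injective (eu.trans e) ▸ hu,
      fun hu => ⟨_, hu, e.symm⟩⟩
  · exact (iff_of_eq (congrArg (· ≠ 0) e)).trans β.e.equivFun.map_ne_zero_iff

end Crest.Agent.N265
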